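import Vale.Agent.H26.D4Odd
import Vale.Agent.H26.GSFhat
import Vale.Agent.H39.M8.Main
import Vale.Agent.H26.GSConj

/-!
# P047 (Gopalan-Servedio): the results of this folder in one statement

Points of the cube are `x : Fin n → Bool` (`true` is the sign `-1`), and `fhat f S` is the
Fourier coefficient of a Boolean function `f` at `S`; `fhat f ∅` is the mean of `f`.  A subcube
is given by a partial assignment `a j : Fin n → Option Bool` (`none` = free coordinate): it
consists of the points `x` with `x i = b` whenever `a j i = some b`.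

* Conjuncts 1-12 are the statement of the hand-in `D00000_SharpFourMonotoneEight`, verbatim:
  `M(4) = 7/4`, the upper bound `(24/25) d` and the lower bound `B_d + C(2m,m)/2^(d-2)` in
  every degree, and the majority bound for unate functions of degree at most `4`, `6`, `8`,
  with the witnesses.
* Conjunct 13: if one level set of a Boolean `f` is a disjoint union of subcubes with at most
  `d` fixed coordinates each, then `∑_i |f^({i})| ≤ 2 e^(-1/2) (√d + 1/2)` (from the hand-in
  `A_UnambiguousSubcubes`, part 2, with all weights equal to one).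
* Conjunct 14: the weak form of the conjecture, `∑_i f^({i}) ≤ C √d` for one absolute `C` and
  all Boolean `f` of degree at most `d`, is equivalent to the form with constant one
  (the hand-in `C_TensorPower`, restated with `fhat` and the degree bound as a hypothesis).

Nothing new is proved here: the proof is the tuple of the existing theorems
(seats H26, H13, H39, H46).
-/

namespace Vale.Agent.Results.P047.A0_SharpFourUnateSubcubes

open Vale.Agent.H39

theorem result :
    (∀ (n : ℕ) (f : (Fin n → Bool) → Bool),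
      (∀ S : Finset (Fin n), 4 < S.card → fhat f S = 0) →
      ∑ i : Fin n, |fhat f {i}| ≤ 7 / 4) ∧
    (∀ (n : ℕ) (f : (Fin n → Bool) → Bool),
      (∀ S : Finset (Fin n), Odd S.card → 4 < S.card → fhat f S = 0) →
      ∑ i : Fin n, |fhat f {i}| ≤ 7 / 4) ∧
    (∃ f : (Fin 7 → Bool) → Bool,
      (∀ S : Finset (Fin 7), 4 < S.card → fhat f S = 0) ∧
      (∀ i : Fin 7, fhat f {i} = 1 / 4) ∧ ∑ i : Fin 7, fhat f {i} = 7 / 4) ∧
    (∀ (n d : ℕ), 2 ≤ d → ∀ f : (Fin n → Bool) → Bool,
      (∀ S : Finset (Fin n), d < S.card → fhat f S = 0) →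
      (∑ i : Fin n, |fhat f {i}|
          ≤ (d : ℝ) - 1 / ((d : ℝ) * Real.sin (Real.pi / (4 * d)) ^ 2
            * (1 + ((1 + Real.sin (Real.pi / (2 * d))) / (1 - Real.sin (Real.pi / (2 * d)))) ^ d)))
        ∧ ∑ i : Fin n, |fhat f {i}| ≤ 24 / 25 * (d : ℝ)) ∧
    (∀ d : ℕ, 4 ≤ d → ∃ (n : ℕ) (f : (Fin n → Bool) → Bool),
      (∀ S : Finset (Fin n), d < S.card → fhat f S = 0) ∧
      ∑ i : Fin n, fhat f {i}
        = (∑ x : Fin d → Bool, |∑ i : Fin d, bsign (x i)|) / 2 ^ d
          + ((2 * ((d - 4) / 2)).choose ((d - 4) / 2) : ℝ) / 2 ^ (d - 2) ∧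
      (∑ x : Fin d → Bool, |∑ i : Fin d, bsign (x i)|) / 2 ^ d < ∑ i : Fin n, fhat f {i}) ∧
    (∀ (n : ℕ) (f : (Fin n → Bool) → Bool) (z : Fin n → Bool),
      Monotone (fun x : Fin n → Bool => f (fun i => xor (x i) (z i))) →
      (∀ S : Finset (Fin n), 4 < S.card → fhat f S = 0) →
      ∑ i : Fin n, |fhat f {i}| ≤ 3 / 2) ∧
    (∀ (n : ℕ) (f : (Fin n → Bool) → Bool) (z : Fin n → Bool),
      Monotone (fun x : Fin n → Bool => f (fun i => xor (x i) (z i))) →
      (∀ S : Finset (Fin n), 6 < S.card → fhat f S = 0) →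
      ∑ i : Fin n, |fhat f {i}| ≤ 15 / 8) ∧
    (∀ (n : ℕ) (f : (Fin n → Bool) → Bool) (z : Fin n → Bool),
      Monotone (fun x : Fin n → Bool => f (fun i => xor (x i) (z i))) →
      (∀ S : Finset (Fin n), 8 < S.card → fhat f S = 0) →
      ∑ i : Fin n, |fhat f {i}| ≤ 35 / 16) ∧
    (∃ f : (Fin 3 → Bool) → Bool, Monotone f ∧ ∑ i : Fin 3, fhat f {i} = 3 / 2) ∧
    (∃ f : (Fin 5 → Bool) → Bool, Monotone f ∧ ∑ i : Fin 5, fhat f {i} = 15 / 8) ∧
    (∃ f : (Fin 7 → Bool) → Bool, Monotone f ∧ ∑ i : Fin 7, fhat f {i} = 35 / 16) ∧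
    (∀ (n d : ℕ) (f : (Fin n → Bool) → Bool) (s : Bool) (J : Type) [Fintype J]
      (a : J → Fin n → Option Bool),
      (∀ j, (Finset.univ.filter (fun i => a j i ≠ none)).card ≤ d) →
      (∀ (x : Fin n → Bool) (j j' : J), (∀ i b, a j i = some b → x i = b) →
        (∀ i b, a j' i = some b → x i = b) → j = j') →
      (∀ x : Fin n → Bool, f x = s ↔ ∃ j, ∀ i b, a j i = some b → x i = b) →
      ∑ i : Fin n, |fhat f {i}| ≤ 2 * Real.exp (-1 / 2) * (Real.sqrt d + 1 / 2)) ∧
    ((∃ C : ℝ, ∀ (n d : ℕ) (f : (Fin n → Bool) → Bool),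
        (∀ S : Finset (Fin n), d < S.card → fhat f S = 0) →
        ∑ i : Fin n, fhat f {i} ≤ C * Real.sqrt d) ↔
    ∀ (n d : ℕ) (f : (Fin n → Bool) → Bool),
        (∀ S : Finset (Fin n), d < S.card → fhat f S = 0) →
        ((fhat f ∅ = 0 ∨ Odd d) → ∑ i : Fin n, fhat f {i} + |fhat f ∅| ≤ Real.sqrt d) ∧
        ∑ i : Fin n, fhat f {i} + |fhat f ∅| ≤ Real.sqrt (d + 1)) := by
  refine ⟨fun n f hdeg => Vale.Agent.H26.D4.sum_abs_fhat_le_seven_quarters f hdeg,
    fun n f hodd => Vale.Agent.H26.D4.sum_abs_fhat_le_seven_quarters_odd f hodd,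
    Vale.Agent.H26.D4.exists_seven_quarters, ?_, Vale.Agent.H26.D4.all_degrees_fhat,
    fun n f z hf hdeg => unate4 f z hf hdeg, fun n f z hf hdeg => unate6 f z hf hdeg,
    fun n f z hf hdeg => unate8 f z hf hdeg,
    exists_mono_three_halves, exists_mono_fifteen_eighths, exists_mono_thirtyfive_sixteenths,
    fun n d f s J _ a hd hdisj hunion =>
      Vale.Agent.H26.GSConj.a2_fhat n d f s J a hd hdisj hunion,
    Vale.Agent.H26.GSConj.c_fhat⟩
  intro n d hd f hdeg
  exact sum_abs_fhat_le hd f hdeg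

end Vale.Agent.Results.P047.A0_SharpFourUnateSubcubes
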