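import Vale.Agent.H26.ConicalJunta

/-!
# P047 (Gopalan-Servedio): square-root bounds for unambiguous subcube structures

Points of `{-1,1}^n` are `x : Fin n → Bool`, with `x i = true` read as `x_i = -1` and
`x i = false` as `x_i = 1`.  A subcube is given by a partial assignment
`p : Fin n → Option Bool` (`none` = free coordinate): it consists of the points `x` with
`x i = b` whenever `p i = some b`, and its codimension is the number of `i` with `p i ≠ none`.
The level-one coefficient of `f` at `i` is `(∑_x f x * x_i) / 2^n`.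

**Part 1 (two-sided, constant one).**  Let `a j` (`j : J`) be subcubes with weights `lam j ≥ 0`
such that every point `x` has total weight `1` in the subcubes containing it (a fractional subcube
partition; weights in `{0,1}` give an ordinary partition into subcubes, e.g. the leaves of a
decision tree), and let `f` be constant on every subcube of positive weight.  Then
`(∑_i f^({i}))^2 ≤ Var(f) * ∑_j lam j * k_j / 2^(k_j)` (`k_j` the codimension of the `j`-th
subcube), and if `f` is Boolean and every subcube of positive weight has codimension at most `D`,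
then `(∑_i f^({i}))^2 ≤ (1 - (E f)^2) * D`.

**Part 2 (one-sided, constant `2/√e`).**  Let `g = ∑_j lam j * 1_{C_j}` with `lam j ≥ 0`, where
every subcube `C_j` of positive weight has codimension at most `d`, and suppose `g ≤ 1` pointwise.
If `f = σ (1 - 2 g)` with `σ = ±1`, then `∑_i |f^({i})| ≤ 2 e^{-1/2} (√d + 1/2)`.
For a Boolean `f` whose set `f = -1` (take `σ = 1`) or `f = 1` (take `σ = -1`) is a disjoint union
of subcubes of codimension at most `d` (an unambiguous DNF of width `d`; take `lam = 1`), this is
the square-root bound with constant `2/√e ≈ 1.2131`; such `f` has degree at most `d`, and only one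
of the two level sets has to be partitioned.
-/

namespace Vale.Agent.Results.P047.A_UnambiguousSubcubes

theorem result :
    (∀ (n : ℕ) (J : Type) [Fintype J]
      (a : J → Fin n → Option Bool) (lam : J → ℝ) (f : (Fin n → Bool) → ℝ),
      (∀ j, 0 ≤ lam j) →
      (∀ x : Fin n → Bool,
        (∑ j, (if ∀ i b, a j i = some b → x i = b then lam j else 0)) = 1) →
      (∀ j, 0 < lam j → ∀ x y : Fin n → Bool,
        (∀ i b, a j i = some b → x i = b) → (∀ i b, a j i = some b → y i = b) → f x = f y) →
      (∑ i : Fin n, (∑ x : Fin n → Bool, f x * (if x i then (-1 : ℝ) else 1)) / 2 ^ n) ^ 2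
        ≤ ((∑ x : Fin n → Bool, f x ^ 2) / 2 ^ n - ((∑ x : Fin n → Bool, f x) / 2 ^ n) ^ 2)
            * (∑ j, lam j * ((Finset.univ.filter (fun i => a j i ≠ none)).card : ℝ)
                / 2 ^ (Finset.univ.filter (fun i => a j i ≠ none)).card)
      ∧
      ∀ D : ℕ, (∀ x, f x = 1 ∨ f x = -1) →
        (∀ j, 0 < lam j → (Finset.univ.filter (fun i => a j i ≠ none)).card ≤ D) →
        (∑ i : Fin n, (∑ x : Fin n → Bool, f x * (if x i then (-1 : ℝ) else 1)) / 2 ^ n) ^ 2
          ≤ (1 - ((∑ x : Fin n → Bool, f x) / 2 ^ n) ^ 2) * D)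
    ∧
    (∀ (n : ℕ) (J : Type) [Fintype J]
      (a : J → Fin n → Option Bool) (lam : J → ℝ) (f : (Fin n → Bool) → ℝ) (σ : ℝ) (d : ℕ),
      (σ = 1 ∨ σ = -1) →
      (∀ j, 0 ≤ lam j) →
      (∀ j, 0 < lam j → (Finset.univ.filter (fun i => a j i ≠ none)).card ≤ d) →
      (∀ x : Fin n → Bool,
        (∑ j, (if ∀ i b, a j i = some b → x i = b then lam j else 0)) ≤ 1) →
      (∀ x : Fin n → Bool,
        f x = σ * (1 - 2 * ∑ j, (if ∀ i b, a j i = some b → x i = b then lam j else 0))) →
      ∑ i : Fin n, |(∑ x : Fin n → Bool, f x * (if x i then (-1 : ℝ) else 1)) / 2 ^ n|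
        ≤ 2 * Real.exp (-1 / 2) * (Real.sqrt d + 1 / 2)) :=
  ⟨fun n J _ a lam f hlam hcover hconst =>
      Vale.Agent.H26.SP.main_statement n J a lam f hlam hcover hconst,
    fun n J _ a lam f σ d hσ hlam hd hle hf =>
      Vale.Agent.H26.CJ.conical_statement n J a lam f σ d hσ hlam hd hle hf⟩

end Vale.Agent.Results.P047.A_UnambiguousSubcubes
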