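import Vale.Agent.H26.D4Odd
import Vale.Agent.H26.GSFhat
import Vale.Agent.H39.M6.Main

/-!
# P047 (Gopalan-Servedio): `M(4) = 7/4`, two-sided bounds in every degree, and the majority
bound for monotone and unate functions up to degree six

Points of the cube are `x : Fin n → Bool` (`true` is the sign `-1`), and `fhat f S` is the
Fourier coefficient of a Boolean function `f`.

1. Every Boolean `f` whose Fourier coefficients vanish above level `4` has
   `∑_i |f^({i})| ≤ 7/4`.
2. More generally the same bound holds as soon as the coefficients `f^(S)` with `|S|` odd and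
   `|S| ≥ 5` vanish (no condition on the coefficients of even order).
3. The bound is attained: a Boolean function of seven variables and degree at most `4` has all
   its level-one coefficients equal to `1/4`.
4. For every `d ≥ 2`, every Boolean `f` of degree at most `d` has `∑_i |f^({i})| ≤ (24/25) d`
   (and an explicit sharper bound).
5. For every `d ≥ 4` some Boolean `f` of degree at most `d` has
   `∑_i f^({i}) = B_d + C(2m,m)/2^(d-2) > B_d`, `m = ⌊(d-4)/2⌋`, `B_d = E|X_1 + ... + X_d|`.
6. If `f` becomes monotone after negating the inputs marked by some `z` (a unate function; `z`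
   all `false`: a monotone function) and has degree at most `4`, then `∑_i |f^({i})| ≤ 3/2`.
7. Under the same hypothesis with degree at most `6`, `∑_i |f^({i})| ≤ 15/8`.
8. Both constants are attained by monotone functions, on three and on five variables (majority).

Parts 1-5 are the statement of the hand-in `D000_OddPartSharp`, verbatim (seats H26, H13, H39).
Parts 6-8: `Vale.Agent.H39.M6` (seat H39; level-one identity in degree at most six, and the
fact that for a monotone function a sensitive flip at a constant point is never repaired by a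
second flip).
-/

namespace Vale.Agent.Results.P047.D0000_SharpFourMonotoneSix

open Vale.Agent.H39

theorem result :
    (∀ (n : ℕ) (f : (Fin n → Bool) → Bool),
      (∀ S : Finset (Fin n), 4 < S.card → fhat f S = 0) →
      ∑ i : Fin n, |fhat f {i}| ≤ 7 / 4) ∧
    (∀ (n : ℕ) (f : (Fin n → Bool) → Bool),
      (∀ S : Finset (Fin n), Odd S.card → 4 < S.card → fhat f S = 0) →
      ∑ i : Fin n, |fhat f {i}| ≤ 7 / 4) ∧
    (∃ f : (Fin 7 → Bool) → Bool,
      (∀ S : Finset (Fin 7), 4 < S.card → fhat f S = 0) ∧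
      (∀ i : Fin 7, fhat f {i} = 1 / 4) ∧ ∑ i : Fin 7, fhat f {i} = 7 / 4) ∧
    (∀ (n d : ℕ), 2 ≤ d → ∀ f : (Fin n → Bool) → Bool,
      (∀ S : Finset (Fin n), d < S.card → fhat f S = 0) →
      (∑ i : Fin n, |fhat f {i}|
          ≤ (d : ℝ) - 1 / ((d : ℝ) * Real.sin (Real.pi / (4 * d)) ^ 2
            * (1 + ((1 + Real.sin (Real.pi / (2 * d))) / (1 - Real.sin (Real.pi / (2 * d)))) ^ d)))
        ∧ ∑ i : Fin n, |fhat f {i}| ≤ 24 / 25 * (d : ℝ)) ∧
    (∀ d : ℕ, 4 ≤ d → ∃ (n : ℕ) (f : (Fin n → Bool) → Bool),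
      (∀ S : Finset (Fin n), d < S.card → fhat f S = 0) ∧
      ∑ i : Fin n, fhat f {i}
        = (∑ x : Fin d → Bool, |∑ i : Fin d, bsign (x i)|) / 2 ^ d
          + ((2 * ((d - 4) / 2)).choose ((d - 4) / 2) : ℝ) / 2 ^ (d - 2) ∧
      (∑ x : Fin d → Bool, |∑ i : Fin d, bsign (x i)|) / 2 ^ d < ∑ i : Fin n, fhat f {i}) ∧
    (∀ (n : ℕ) (f : (Fin n → Bool) → Bool) (z : Fin n → Bool),
      Monotone (fun x : Fin n → Bool => f (fun i => xor (x i) (z i))) →
      (∀ S : Finset (Fin n), 4 < S.card → fhat f S = 0) →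
      ∑ i : Fin n, |fhat f {i}| ≤ 3 / 2) ∧
    (∀ (n : ℕ) (f : (Fin n → Bool) → Bool) (z : Fin n → Bool),
      Monotone (fun x : Fin n → Bool => f (fun i => xor (x i) (z i))) →
      (∀ S : Finset (Fin n), 6 < S.card → fhat f S = 0) →
      ∑ i : Fin n, |fhat f {i}| ≤ 15 / 8) ∧
    (∃ f : (Fin 3 → Bool) → Bool, Monotone f ∧ ∑ i : Fin 3, fhat f {i} = 3 / 2) ∧
    (∃ f : (Fin 5 → Bool) → Bool, Monotone f ∧ ∑ i : Fin 5, fhat f {i} = 15 / 8) := by
  refine ⟨fun n f hdeg => Vale.Agent.H26.D4.sum_abs_fhat_le_seven_quarters f hdeg,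
    fun n f hodd => Vale.Agent.H26.D4.sum_abs_fhat_le_seven_quarters_odd f hodd,
    Vale.Agent.H26.D4.exists_seven_quarters, ?_, Vale.Agent.H26.D4.all_degrees_fhat,
    fun n f z hf hdeg => unate4 f z hf hdeg, fun n f z hf hdeg => unate6 f z hf hdeg,
    exists_mono_three_halves, exists_mono_fifteen_eighths⟩
  intro n d hd f hdeg
  exact sum_abs_fhat_le hd f hdeg

end Vale.Agent.Results.P047.D0000_SharpFourMonotoneSix
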