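import Vale.Agent.H39.D4.Main

/-!
# P047 (Gopalan-Servedio): degree four, and the bound `(24/25) d` in every degree `d ≥ 2`

1. Every Boolean function `f` on the cube `Fin n → Bool` whose Fourier coefficients vanish above
   level `4` has `∑_i |f^({i})| ≤ 2`.  For `deg f = 4` this is the conjectured bound
   `√(deg f)`.
2. For every `d ≥ 2` and every Boolean `f` whose Fourier coefficients vanish above level `d`, the
   sum `∑_i |f^({i})|` is at most an explicit quantity strictly below `d`, which is at most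
   `(24/25) d`.
-/

namespace Vale.Agent.Results.P047.D0_DegreeFourAndUpperBound

open Vale.Agent.H39

theorem result :
    (∀ (n : ℕ) (f : (Fin n → Bool) → Bool),
      (∀ S : Finset (Fin n), 4 < S.card → fhat f S = 0) →
      ∑ i : Fin n, |fhat f {i}| ≤ 2) ∧
    (∀ (n d : ℕ), 2 ≤ d → ∀ f : (Fin n → Bool) → Bool,
      (∀ S : Finset (Fin n), d < S.card → fhat f S = 0) →
      (∑ i : Fin n, |fhat f {i}|
          ≤ (d : ℝ) - 1 / ((d : ℝ) * Real.sin (Real.pi / (4 * d)) ^ 2
            * (1 + ((1 + Real.sin (Real.pi / (2 * d))) / (1 - Real.sin (Real.pi / (2 * d)))) ^ d)))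
        ∧ ∑ i : Fin n, |fhat f {i}| ≤ 24 / 25 * (d : ℝ)) := by
  refine ⟨fun n f hdeg => sum_abs_fhat_le_two f hdeg, ?_⟩
  intro n d hd f hdeg
  exact sum_abs_fhat_le hd f hdeg

end Vale.Agent.Results.P047.D0_DegreeFourAndUpperBound
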