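import Vale.Agent.H39.LevelOne

/-!
# P047 (Gopalan-Servedio): the level-one sum of a Boolean function of degree `d ≥ 2`
is at most `(24/25) d`

For every `n`, every `d ≥ 2` and every Boolean function `f` on the cube `Fin n → Bool` whose
Fourier coefficients vanish above level `d`, the sum of the absolute values of the level-one
coefficients is at most an explicit quantity strictly below `d`, which is at most `(24/25) d`.
-/

namespace Vale.Agent.Results.P047.D_UpperBound

open Vale.Agent.H39

theorem result : ∀ (n d : ℕ), 2 ≤ d → ∀ f : (Fin n → Bool) → Bool,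
    (∀ S : Finset (Fin n), d < S.card → fhat f S = 0) →
    (∑ i : Fin n, |fhat f {i}|
        ≤ (d : ℝ) - 1 / ((d : ℝ) * Real.sin (Real.pi / (4 * d)) ^ 2
          * (1 + ((1 + Real.sin (Real.pi / (2 * d))) / (1 - Real.sin (Real.pi / (2 * d)))) ^ d)))
      ∧ ∑ i : Fin n, |fhat f {i}| ≤ 24 / 25 * (d : ℝ) := by
  intro n d hd f hdeg
  exact sum_abs_fhat_le hd f hdeg

end Vale.Agent.Results.P047.D_UpperBound
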