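import Vale.Agent.H26.GSAll

/-!
# P047 (Gopalan-Servedio): the level-one sum exceeds `B_d` in every degree `d ≥ 4`

Points of `{-1,1}^n` are `x : Fin n → Bool`, with `x i = true` read as `x_i = -1` and
`x i = false` as `x_i = 1`.  For every `d ≥ 4` (even or odd) we exhibit a Boolean function of
degree at most `d` whose level-one Fourier sum equals
`B_d + C(2⌊(d-4)/2⌋, ⌊(d-4)/2⌋) / 2^(d-2)`, which is larger than `B_d`.

Even degrees use the seven-variable degree-4 function of `Vale.Agent.H13.GSSeven` (helper13);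
odd degrees use a nine-variable odd function of degree 5 with level-one sum 2
(`Vale.Agent.H26.GSNine`), glued under a decision tree as in `Vale.Agent.H13.GSGlue`.
-/

namespace Vale.Agent.Results.P047.E_AllDegrees

theorem result : ∀ d : ℕ, 4 ≤ d →
    ∃ (n : ℕ) (f : (Fin n → Bool) → ℝ),
      (∀ x, f x = 1 ∨ f x = -1) ∧
      (∀ S : Finset (Fin n), d < S.card →
        (∑ x : Fin n → Bool, f x * ∏ i ∈ S, (if x i then (-1 : ℝ) else 1)) / 2 ^ n = 0) ∧
      (∑ i : Fin n, (∑ x : Fin n → Bool, f x * (if x i then (-1 : ℝ) else 1)) / 2 ^ n)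
        = (∑ x : Fin d → Bool, |∑ i : Fin d, (if x i then (-1 : ℝ) else 1)|) / 2 ^ d
          + ((2 * ((d - 4) / 2)).choose ((d - 4) / 2) : ℝ) / 2 ^ (d - 2) ∧
      (∑ x : Fin d → Bool, |∑ i : Fin d, (if x i then (-1 : ℝ) else 1)|) / 2 ^ d
        < ∑ i : Fin n, (∑ x : Fin n → Bool, f x * (if x i then (-1 : ℝ) else 1)) / 2 ^ n :=
  Vale.Agent.H26.GS.all_degrees

end Vale.Agent.Results.P047.E_AllDegrees
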