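import Vale.Agent.H46.TensorPower

/-!
# P047 (Gopalan-Servedio): the weak form is equivalent to a strong form with constant one

If the level-one sum of every Boolean function is at most `C * sqrt (deg f)` for one absolute
constant `C` (the weak form of the conjecture), then the constant can be taken to be `1` for
every Boolean function that is balanced or of odd degree, `deg f` can be replaced by
`deg f + 1` in general, and the absolute value of the mean can be added on the left.
The converse is elementary, so the two statements are equivalent.

Proof of the forward direction: composition with a balanced inner function multiplies level-one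
sums and (bounds) degrees, so a balanced function violating the strong bound has powers
violating any weak bound; an arbitrary function `f` is reduced to its balanced odd extension
`(x, y) ↦ s y f(s y x)`, whose degree is at most `deg f + 1` (at most `deg f` if that is odd)
and whose level-one sum is that of `f` plus `s` times the mean of `f`.
-/

namespace Vale.Agent.Results.P047.E_TensorPower

open Vale.Agent.H46

theorem result :
    (∃ C : ℝ, ∀ (n : ℕ) (f : (Fin n → Bool) → Bool), levelOne f ≤ C * Real.sqrt (deg f)) ↔
    ∀ (n : ℕ) (f : (Fin n → Bool) → Bool),
      ((fourier f ∅ = 0 ∨ Odd (deg f)) →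
          levelOne f + |fourier f ∅| ≤ Real.sqrt (deg f)) ∧
      levelOne f + |fourier f ∅| ≤ Real.sqrt (deg f + 1) := by
  constructor
  · rintro ⟨C, hC⟩ n f
    -- choose the sign `s` with `sgn s * mean = |mean|`
    obtain ⟨s, hs⟩ : ∃ s : Bool, sgn s * fourier f ∅ = |fourier f ∅| := by
      rcases le_total 0 (fourier f ∅) with h | h
      · exact ⟨false, by simp [abs_of_nonneg h]⟩
      · exact ⟨true, by simp [abs_of_nonpos h]⟩
    have hodd := balanced_bound C hC (oddify s f) (fourier_oddify_empty s f)
    rw [levelOne_oddify, hs] at hodd
    refine ⟨?_, ?_⟩
    · rintro (h0 | h1)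
      · have := balanced_bound C hC f h0
        simpa [h0] using this
      · refine hodd.trans (Real.sqrt_le_sqrt ?_)
        exact_mod_cast deg_oddify_le_of_odd s f h1
    · refine hodd.trans (Real.sqrt_le_sqrt ?_)
      exact_mod_cast deg_oddify_le s f
  · intro H
    refine ⟨Real.sqrt 2, fun n f => ?_⟩
    rcases Nat.eq_zero_or_pos (deg f) with h0 | h0
    · -- degree zero: all level-one coefficients vanish
      have h1 : levelOne f = 0 := by
        rw [levelOne]
        refine Finset.sum_eq_zero (fun i _ => ?_)
        by_contra hne
        have := card_le_deg f {i} hne
        rw [h0] at this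
        simp at this
      rw [h1, h0]
      simp
    · have h1 := (H n f).2
      have h2 : (1 : ℝ) ≤ (deg f : ℝ) := by exact_mod_cast h0
      calc levelOne f ≤ levelOne f + |fourier f ∅| := le_add_of_nonneg_right (abs_nonneg _)
        _ ≤ Real.sqrt (deg f + 1) := h1
        _ ≤ Real.sqrt (2 * deg f) := Real.sqrt_le_sqrt (by linarith)
        _ = Real.sqrt 2 * Real.sqrt (deg f) := Real.sqrt_mul (by norm_num) _

end Vale.Agent.Results.P047.E_TensorPower
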